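import Vale.Agent.P033.Main

namespace Vale.Agent.Results.P033.Ryser

open Matrix

/-- A real Hadamard matrix of order `n`. -/
def IsHadamard (n : ℕ) (H : Matrix (Fin n) (Fin n) ℝ) : Prop :=
  (∀ i j, H i j = 1 ∨ H i j = -1) ∧ H * Hᵀ = (n : ℝ) • (1 : Matrix (Fin n) (Fin n) ℝ)

/-- The entry in row `i` and column `j` depends only on `j - i` modulo `n`. -/
def IsCirculant (n : ℕ) (H : Matrix (Fin n) (Fin n) ℝ) : Prop :=
  ∃ h : ZMod n → ℝ, ∀ i j : Fin n, H i j = h (((j : ℕ) : ZMod n) - ((i : ℕ) : ZMod n))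

theorem result (n : ℕ) (hn : 1 ≤ n) :
    (∃ H : Matrix (Fin n) (Fin n) ℝ, IsHadamard n H ∧ IsCirculant n H) ↔ (n = 1 ∨ n = 4) := by
  constructor
  · rintro ⟨H, ⟨hs, hH⟩, h, hh⟩
    have : NeZero n := ⟨by omega⟩
    classical
    let e : Fin n ≃ ZMod n :=
      { toFun := fun i => ((i : ℕ) : ZMod n)
        invFun := fun a => ⟨a.val, ZMod.val_lt a⟩
        left_inv := fun i => Fin.ext (ZMod.val_cast_of_lt i.2)
        right_inv := fun a => ZMod.natCast_zmod_val a }
    have hh' : ∀ a b : ZMod n, H (e.symm a) (e.symm b) = h (b - a) := by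
      intro a b
      rw [hh]
      have ha : ((e.symm a : ℕ) : ZMod n) = a := e.apply_symm_apply a
      have hb : ((e.symm b : ℕ) : ZMod n) = b := e.apply_symm_apply b
      rw [ha, hb]
    have hs' : ∀ j, h j = 1 ∨ h j = -1 := fun j => by
      have := hs (e.symm 0) (e.symm j)
      rwa [hh', sub_zero] at this
    let h' : ZMod n → ℤ := fun j => if h j = 1 then 1 else -1
    have hc : ∀ j, (h' j : ℝ) = h j := fun j => by
      rcases hs' j with a | a
      · simp [h', a]
      · simp only [h', a]; norm_num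
    refine Vale.Agent.P033.hadamard_int n h' (fun j => by simp only [h']; split_ifs <;> simp) ?_
    intro t
    have h1 := congrFun (congrFun hH (e.symm 0)) (e.symm (-t))
    rw [Matrix.mul_apply, ← Equiv.sum_comp e.symm] at h1
    simp only [transpose_apply, hh', sub_zero, sub_neg_eq_add, Matrix.smul_apply, Matrix.one_apply,
      EmbeddingLike.apply_eq_iff_eq, zero_eq_neg, smul_eq_mul, mul_ite, mul_one, mul_zero] at h1
    have h2 : ((∑ k, h' k * h' (k + t) : ℤ) : ℝ) = ((if t = 0 then (n : ℤ) else 0 : ℤ) : ℝ) := by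
      push_cast
      simp only [hc]
      exact h1
    exact_mod_cast h2
  · rintro (rfl | rfl)
    · refine ⟨1, ⟨fun i j => Or.inl ?_, by simp⟩, fun _ => 1, fun i j => ?_⟩ <;>
        rw [Subsingleton.elim i j, Matrix.one_apply_eq]
    · refine ⟨!![1, 1, 1, -1; -1, 1, 1, 1; 1, -1, 1, 1; 1, 1, -1, 1], ⟨?_, ?_⟩,
        fun a => if a = 3 then -1 else 1, ?_⟩
      · intro i j; fin_cases i <;> fin_cases j <;> simp
      · ext i j; fin_cases i <;> fin_cases j <;>
          simp [Matrix.mul_apply, Fin.sum_univ_four] <;> norm_num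
      · intro i j
        fin_cases i <;> fin_cases j <;> simp <;> decide

end Vale.Agent.Results.P033.Ryser
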